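import Vale.Agent.P025.R2.H898.Plug
import Vale.Agent.P025.R2.H535.Value
import Vale.Agent.P025.R2.H628.Three5

/-!
# P025 G-MAIN (helper898): part G, (III) for all function fields of genus at least two over `Cp`
-/

universe u

namespace P025H898

open P025H373 P025H450 P025H587 P025H666 Vale.Agent.P019P

section general

variable {C : Type u} [NontriviallyNormedField C] [IsUltrametricDist C] [CompleteSpace C]
  [IsAlgClosed C] [CharZero C]

/-- (S4) -/
theorem value {p : ℕ} [Fact p.Prime] [Algebra ℚ_[p] C]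
    (hnm : ∀ x : ℚ_[p], ‖algebraMap ℚ_[p] C x‖ = ‖x‖) (h1 : ‖(p : C)‖ < 1) :
    P025H352.Value C p := by
  intro K _ _ _ D f f' θ θ' hD hf hf' hθ hθ' hθ0 hne a ha Q hQ l hl hlp hl1
  exact P025H535.value hnm (P025H572.lemA Fact.out h1) (P025H628.three' C) K D f f' θ θ' hD hf
    hf' hθ hθ' hθ0 hne a ha Q hQ l hl hlp hl1

/-- **Part G**: (III) for all function fields of genus at least two -/
theorem stmtIII {p : ℕ} [Fact p.Prime] [Algebra ℚ_[p] C]
    (hnm : ∀ x : ℚ_[p], ‖algebraMap ℚ_[p] C x‖ = ‖x‖)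
    (hdense : Dense {x : C | IsIntegral ℚ_[p] x}) : P025H851.StmtIII.{u, u} C := by
  have h1 : ‖(p : C)‖ < 1 := by
    have h2 := hnm (p : ℚ_[p])
    rw [map_natCast] at h2
    rw [h2]
    exact Padic.norm_p_lt_one
  exact stmtIII_of_value h1 hdense (value hnm h1)

end general

/-- **Part G** for the completion of `k̄` -/
theorem stmtIII_Cp (p : ℕ) [Fact p.Prime] (kb : Type u) [Field kb] [Algebra ℚ_[p] kb]
    [Algebra.IsAlgebraic ℚ_[p] kb] [IsAlgClosed kb] :
    P025H851.StmtIII.{u, u} (P025H722.Cp p kb) := by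
  let _ := algCp p kb
  exact stmtIII (norm_algCp p kb) (dense_Cp p kb)

end P025H898
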