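import Vale.Agent.P025.R2.H352.Nine
import Vale.Agent.P025.R2.H851.A21
import Vale.Agent.P025.R2.H666.Disch
import Vale.Agent.P025.R2.H219.HT4
import Vale.Agent.P025.R2.H722.Cp
import Vale.Agent.P025.R2.H725.StartFull
import Vale.Agent.P025.R2.H572.LemAFin
import Vale.Agent.P025.R2.H628.Three4
import Vale.Agent.P025.R2.H816.Descend

/-!
# P025 G-MAIN (helper898): part G from the rows, in the form consumed by part A
-/

universe u

open TensorProduct P025H373 P025H544 P025H628 P025H492 P025H450 P025H587 P025H621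
  P025H666 P025H941 P025H210 P025H816 Vale.Agent.P019P

set_option linter.unusedSectionVars false

namespace P025H898

section general

variable {C : Type u} [NontriviallyNormedField C] [IsUltrametricDist C] [CompleteSpace C]
  [IsAlgClosed C] [CharZero C]

/-- (III) in the form of part A -/
theorem stmtIII_of_mainIII (h : P025H352.MainIII C) : P025H851.StmtIII.{u, u} C := by
  intro K _ _ _ _ _ _ hg q hq h0 hh0 hh
  obtain ⟨r0, Nm, hr0, H⟩ := h K hg
  have hq0 : 0 < q := hq.pos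
  have hqC : (q : C) ≠ 0 := by exact_mod_cast hq0.ne'
  have hqn : 0 < ‖(q : C)‖ ^ Nm := pow_pos (norm_pos_iff.2 hqC) _
  refine ⟨r0 / ‖(q : C)‖ ^ Nm + 1, fun c hc => ?_⟩
  have hc' : r0 < ‖(c : C)‖ * ‖(q : C)‖ ^ Nm := by
    rw [← div_lt_iff₀ hqn]
    linarith
  obtain ⟨L, _, _, _, _, _, _, _, hcff, hfin, hgal, hsol, hunr, s, hs⟩ := H q hq0 c hc' h0 hh0 hh
  exact ⟨L, inferInstance, inferInstance, inferInstance, inferInstance, inferInstance,
    inferInstance, ⟨hfin, hgal, hsol, fun {_ _ _} => hunr⟩, s, hs⟩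

/-- (6.1) -/
theorem rowHT {p : ℕ} (hp : p.Prime) (h1 : ‖(p : C)‖ < 1) : P025H352.RowHT C p :=
  fun _ _ _ _ => P025H219.hasTheta hp.ne_zero h1

/-- (6.1) -/
theorem hasTh {p : ℕ} (hp : p.Prime) (h1 : ‖(p : C)‖ < 1) : P025H666.HasTh C p :=
  fun _ _ _ _ D _ hf => P025H219.exists_isTheta hp.ne_zero h1 D hf

omit [CharZero C] in
/-- G-MONO, disc form -/
theorem monoD : P025H352.MonoD C := by
  intro K _ _ _ N l P h _ _ c hc
  exact h.at c (Or.inr hc)

/-- (8.1) with the roles of the two forms exchanged -/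
theorem rank2_swap {p : ℕ} (h : P025H666.Rank2 C p) : P025H352.Rank2 C p := by
  intro K _ _ _ hg
  obtain ⟨Z, i1, i2, i3, i4, i5, i6, hin, D, f, f', θ, θ', hD, hf, hf', hθ, hθ', hθ0, hne⟩ :=
    h K hg
  exact ⟨Z, i1, i2, i3, i4, i5, i6, hin, D, f', f, θ', θ, hD, hf', hf, hθ', hθ, hθ0, hne⟩

/-- (8.1) -/
theorem rank2 {p : ℕ} (hp : p.Prime) (h1 : ‖(p : C)‖ < 1) (hStart : Start C p)
    (hLemA : LemA C p) : P025H352.Rank2 C p :=
  rank2_swap (rank2_of hp h1 hStart (P025H666.zero C) hLemA (P025H666.mono C) (hasTh hp h1)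
    (P025H666.onDU C))

/-- (S5) -/
theorem desc : P025H352.Desc C := by
  intro K Z W _ _ _ _ _ _ _ _ _ _ _ _ _ _ _ _ _ _ _ _ _ N M l P c _ hcov h _ hl
  have hfin : FiniteDimensional K W := hcov.fin
  have hfinZ : FiniteDimensional K Z := FiniteDimensional.left K Z W
  exact P025H816.rnsat_descend hcov hl P c h

/-- (III) for one function field, from RNS -/
theorem three : P025H352.Three C := by
  intro K _ _ _ _ _ _ m l hl hlm hR
  exact P025H628.three_mono (P025H666.mono C) K m l hl hlm hR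

/-- **Part G** from (S4): (III) for all function fields of genus at least two -/
theorem stmtIII_of_value {p : ℕ} [Fact p.Prime] [Algebra ℚ_[p] C] (h1 : ‖(p : C)‖ < 1)
    (hdense : Dense {x : C | IsIntegral ℚ_[p] x}) (hV : P025H352.Value C p) :
    P025H851.StmtIII.{u, u} C :=
  stmtIII_of_mainIII (P025H352.mainIII_of (P025H352.thm9_of hdense
    (rank2 Fact.out h1 (P025H725.start_row C Fact.out h1) (P025H572.lemA Fact.out h1)) hV monoD
    desc) three)

end general

section Cp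

variable (p : ℕ) [Fact p.Prime] (kb : Type u) [Field kb] [Algebra ℚ_[p] kb]
  [Algebra.IsAlgebraic ℚ_[p] kb]

/-- `Cp p kb` over `ℚ_p` -/
@[reducible] noncomputable def algCp : Algebra ℚ_[p] (P025H722.Cp p kb) :=
  ((algebraMap kb (P025H722.Cp p kb)).comp (algebraMap ℚ_[p] kb)).toAlgebra

theorem norm_algCp (x : ℚ_[p]) : let _ := algCp p kb
    ‖algebraMap ℚ_[p] (P025H722.Cp p kb) x‖ = ‖x‖ := by
  intro _
  change ‖algebraMap kb (P025H722.Cp p kb) (algebraMap ℚ_[p] kb x)‖ = ‖x‖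
  rw [P025H722.Cp.norm_algebraMap, spectralNorm_extends]

theorem dense_Cp : let _ := algCp p kb
    Dense {x : P025H722.Cp p kb | IsIntegral ℚ_[p] x} := by
  intro _
  have htow : IsScalarTower ℚ_[p] kb (P025H722.Cp p kb) :=
    IsScalarTower.of_algebraMap_eq fun _ => rfl
  refine (P025H722.Cp.denseRange_algebraMap p kb).mono ?_
  rintro _ ⟨x, rfl⟩
  exact (Algebra.IsIntegral.isIntegral (R := ℚ_[p]) x).algebraMap

end Cp

end P025H898
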